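import Vale.Agent.P252.Cert.PDCoef
import Vale.Agent.P252.Rigidity.General.Cert5.Data
import Vale.Agent.P252.Rigidity.General.Cert5.Gap
import Vale.Agent.P252.Rigidity.General.Cert5.Flat.I0

/-! The stored block equals the structured one, checked at Kronecker points. -/

namespace Vale.Agent.P252.General.Cert5

open Vale.Agent.P100T.PosCheck Vale.Agent.P252.PolyPSD

theorem rowI0_0 : rowCheck (SI0 c5) (PDCoef.matEx 9 offI0 16 MI0)
    (fun i => exI0.getD i.val 0) (fun i => wI0.getD i.val 0) gI0 0 = true := by decide +kernel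

theorem rowI0_1 : rowCheck (SI0 c5) (PDCoef.matEx 9 offI0 16 MI0)
    (fun i => exI0.getD i.val 0) (fun i => wI0.getD i.val 0) gI0 1 = true := by decide +kernel

theorem rowI0_2 : rowCheck (SI0 c5) (PDCoef.matEx 9 offI0 16 MI0)
    (fun i => exI0.getD i.val 0) (fun i => wI0.getD i.val 0) gI0 2 = true := by decide +kernel

theorem rowI0_3 : rowCheck (SI0 c5) (PDCoef.matEx 9 offI0 16 MI0)
    (fun i => exI0.getD i.val 0) (fun i => wI0.getD i.val 0) gI0 3 = true := by decide +kernel

theorem rowI0_4 : rowCheck (SI0 c5) (PDCoef.matEx 9 offI0 16 MI0)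
    (fun i => exI0.getD i.val 0) (fun i => wI0.getD i.val 0) gI0 4 = true := by decide +kernel

theorem rowI0_5 : rowCheck (SI0 c5) (PDCoef.matEx 9 offI0 16 MI0)
    (fun i => exI0.getD i.val 0) (fun i => wI0.getD i.val 0) gI0 5 = true := by decide +kernel

theorem rowI0_6 : rowCheck (SI0 c5) (PDCoef.matEx 9 offI0 16 MI0)
    (fun i => exI0.getD i.val 0) (fun i => wI0.getD i.val 0) gI0 6 = true := by decide +kernel

theorem rowI0_7 : rowCheck (SI0 c5) (PDCoef.matEx 9 offI0 16 MI0)
    (fun i => exI0.getD i.val 0) (fun i => wI0.getD i.val 0) gI0 7 = true := by decide +kernel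

theorem rowI0_8 : rowCheck (SI0 c5) (PDCoef.matEx 9 offI0 16 MI0)
    (fun i => exI0.getD i.val 0) (fun i => wI0.getD i.val 0) gI0 8 = true := by decide +kernel

theorem symI0 : symTab tabI0 = true := by decide +kernel

/-- Structured block I0 is nonnegative where the stored one is. -/
theorem nonnegI0 {X Y Z : ℝ} (hZ : 0 < Z)
    (hpos : ∀ ξ, 0 ≤ qf X Y Z (PDCoef.matEx 9 offI0 16 MI0) ξ) (ξ : Fin 9 → ℝ) :
    0 ≤ qf X Y Z (SI0 c5) ξ := by
  refine qf_nonneg (fun i => exI0.getD i.val 0) (fun i => wI0.getD i.val 0) (g := gI0)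
    (fun k l => ?_) (fun k l => ?_) ?_ hZ hpos ξ
  · simp only [SI0]
    rw [full0_symm symI0 k l]
  · simp only [PDCoef.matEx, PDCoef.entry, min_comm k.val, max_comm k.val]
  · intro k
    fin_cases k
    · exact rowI0_0
    · exact rowI0_1
    · exact rowI0_2
    · exact rowI0_3
    · exact rowI0_4
    · exact rowI0_5
    · exact rowI0_6
    · exact rowI0_7
    · exact rowI0_8

end Vale.Agent.P252.General.Cert5
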