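import Vale.Agent.P252.Cert.PDCoef
import Vale.Agent.P252.Rigidity.General.Cert5.Data
import Vale.Agent.P252.Rigidity.General.Cert5.Gap
import Vale.Agent.P252.Rigidity.General.Cert5.Flat.I2

/-! The stored block equals the structured one, checked at Kronecker points. -/

namespace Vale.Agent.P252.General.Cert5

open Vale.Agent.P100T.PosCheck Vale.Agent.P252.PolyPSD

theorem rowI2_0 : rowCheck (SI2 c5) (PDCoef.matEx 3 offI2 14 MI2)
    (fun i => exI2.getD i.val 0) (fun i => wI2.getD i.val 0) gI2 0 = true := by decide +kernel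

theorem rowI2_1 : rowCheck (SI2 c5) (PDCoef.matEx 3 offI2 14 MI2)
    (fun i => exI2.getD i.val 0) (fun i => wI2.getD i.val 0) gI2 1 = true := by decide +kernel

theorem rowI2_2 : rowCheck (SI2 c5) (PDCoef.matEx 3 offI2 14 MI2)
    (fun i => exI2.getD i.val 0) (fun i => wI2.getD i.val 0) gI2 2 = true := by decide +kernel

theorem symI2 : symTab tabI2 = true := by decide +kernel

/-- Structured block I2 is nonnegative where the stored one is. -/
theorem nonnegI2 {X Y Z : ℝ} (hZ : 0 < Z)
    (hpos : ∀ ξ, 0 ≤ qf X Y Z (PDCoef.matEx 3 offI2 14 MI2) ξ) (ξ : Fin 3 → ℝ) :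
    0 ≤ qf X Y Z (SI2 c5) ξ := by
  refine qf_nonneg (fun i => exI2.getD i.val 0) (fun i => wI2.getD i.val 0) (g := gI2)
    (fun k l => ?_) (fun k l => ?_) ?_ hZ hpos ξ
  · simp only [SI2]
    rw [comb_symm symI2 k l]
  · simp only [PDCoef.matEx, PDCoef.entry, min_comm k.val, max_comm k.val]
  · intro k
    fin_cases k
    · exact rowI2_0
    · exact rowI2_1
    · exact rowI2_2

end Vale.Agent.P252.General.Cert5
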