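import Vale.Agent.P252.Cert.PDCoef
import Vale.Agent.P252.Rigidity.General.Cert5.Data
import Vale.Agent.P252.Rigidity.General.Cert5.Gap
import Vale.Agent.P252.Rigidity.General.Cert5.Flat.II0

/-! The stored block equals the structured one, checked at Kronecker points. -/

namespace Vale.Agent.P252.General.Cert5

open Vale.Agent.P100T.PosCheck Vale.Agent.P252.PolyPSD

theorem rowII0_0 : rowCheck (SII0 c5) (PDCoef.matEx 9 offII0 16 MII0)
    (fun i => exII0.getD i.val 0) (fun i => wII0.getD i.val 0) gII0 0 = true := by decide +kernel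

theorem rowII0_1 : rowCheck (SII0 c5) (PDCoef.matEx 9 offII0 16 MII0)
    (fun i => exII0.getD i.val 0) (fun i => wII0.getD i.val 0) gII0 1 = true := by decide +kernel

theorem rowII0_2 : rowCheck (SII0 c5) (PDCoef.matEx 9 offII0 16 MII0)
    (fun i => exII0.getD i.val 0) (fun i => wII0.getD i.val 0) gII0 2 = true := by decide +kernel

theorem rowII0_3 : rowCheck (SII0 c5) (PDCoef.matEx 9 offII0 16 MII0)
    (fun i => exII0.getD i.val 0) (fun i => wII0.getD i.val 0) gII0 3 = true := by decide +kernel

theorem rowII0_4 : rowCheck (SII0 c5) (PDCoef.matEx 9 offII0 16 MII0)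
    (fun i => exII0.getD i.val 0) (fun i => wII0.getD i.val 0) gII0 4 = true := by decide +kernel

theorem rowII0_5 : rowCheck (SII0 c5) (PDCoef.matEx 9 offII0 16 MII0)
    (fun i => exII0.getD i.val 0) (fun i => wII0.getD i.val 0) gII0 5 = true := by decide +kernel

theorem rowII0_6 : rowCheck (SII0 c5) (PDCoef.matEx 9 offII0 16 MII0)
    (fun i => exII0.getD i.val 0) (fun i => wII0.getD i.val 0) gII0 6 = true := by decide +kernel

theorem rowII0_7 : rowCheck (SII0 c5) (PDCoef.matEx 9 offII0 16 MII0)
    (fun i => exII0.getD i.val 0) (fun i => wII0.getD i.val 0) gII0 7 = true := by decide +kernel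

theorem rowII0_8 : rowCheck (SII0 c5) (PDCoef.matEx 9 offII0 16 MII0)
    (fun i => exII0.getD i.val 0) (fun i => wII0.getD i.val 0) gII0 8 = true := by decide +kernel

theorem symII0 : symTab tabII0 = true := by decide +kernel

/-- Structured block II0 is nonnegative where the stored one is. -/
theorem nonnegII0 {X Y Z : ℝ} (hZ : 0 < Z)
    (hpos : ∀ ξ, 0 ≤ qf X Y Z (PDCoef.matEx 9 offII0 16 MII0) ξ) (ξ : Fin 9 → ℝ) :
    0 ≤ qf X Y Z (SII0 c5) ξ := by
  refine qf_nonneg (fun i => exII0.getD i.val 0) (fun i => wII0.getD i.val 0) (g := gII0)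
    (fun k l => ?_) (fun k l => ?_) ?_ hZ hpos ξ
  · simp only [SII0]
    rw [full0_symm symII0 k l]
  · simp only [PDCoef.matEx, PDCoef.entry, min_comm k.val, max_comm k.val]
  · intro k
    fin_cases k
    · exact rowII0_0
    · exact rowII0_1
    · exact rowII0_2
    · exact rowII0_3
    · exact rowII0_4
    · exact rowII0_5
    · exact rowII0_6
    · exact rowII0_7
    · exact rowII0_8

end Vale.Agent.P252.General.Cert5
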