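import Vale.Agent.P252.Cert.PDCoef
import Vale.Agent.P252.Rigidity.General.Cert5.Data
import Vale.Agent.P252.Rigidity.General.Cert5.Gap
import Vale.Agent.P252.Rigidity.General.Cert5.Flat.II1

/-! The stored block equals the structured one, checked at Kronecker points. -/

namespace Vale.Agent.P252.General.Cert5

open Vale.Agent.P100T.PosCheck Vale.Agent.P252.PolyPSD

theorem rowII1_0 : rowCheck (SII1 c5) (PDCoef.matEx 5 offII1 14 MII1)
    (fun i => exII1.getD i.val 0) (fun i => wII1.getD i.val 0) gII1 0 = true := by decide +kernel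

theorem rowII1_1 : rowCheck (SII1 c5) (PDCoef.matEx 5 offII1 14 MII1)
    (fun i => exII1.getD i.val 0) (fun i => wII1.getD i.val 0) gII1 1 = true := by decide +kernel

theorem rowII1_2 : rowCheck (SII1 c5) (PDCoef.matEx 5 offII1 14 MII1)
    (fun i => exII1.getD i.val 0) (fun i => wII1.getD i.val 0) gII1 2 = true := by decide +kernel

theorem rowII1_3 : rowCheck (SII1 c5) (PDCoef.matEx 5 offII1 14 MII1)
    (fun i => exII1.getD i.val 0) (fun i => wII1.getD i.val 0) gII1 3 = true := by decide +kernel

theorem rowII1_4 : rowCheck (SII1 c5) (PDCoef.matEx 5 offII1 14 MII1)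
    (fun i => exII1.getD i.val 0) (fun i => wII1.getD i.val 0) gII1 4 = true := by decide +kernel

theorem symII1 : symTab tabII1 = true := by decide +kernel

/-- Structured block II1 is nonnegative where the stored one is. -/
theorem nonnegII1 {X Y Z : ℝ} (hZ : 0 < Z)
    (hpos : ∀ ξ, 0 ≤ qf X Y Z (PDCoef.matEx 5 offII1 14 MII1) ξ) (ξ : Fin 5 → ℝ) :
    0 ≤ qf X Y Z (SII1 c5) ξ := by
  refine qf_nonneg (fun i => exII1.getD i.val 0) (fun i => wII1.getD i.val 0) (g := gII1)
    (fun k l => ?_) (fun k l => ?_) ?_ hZ hpos ξ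
  · simp only [SII1]
    rw [comb_symm symII1 k l]
  · simp only [PDCoef.matEx, PDCoef.entry, min_comm k.val, max_comm k.val]
  · intro k
    fin_cases k
    · exact rowII1_0
    · exact rowII1_1
    · exact rowII1_2
    · exact rowII1_3
    · exact rowII1_4

end Vale.Agent.P252.General.Cert5
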